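import Vale.Agent.Lib.P250.G.AsmG
import Vale.Agent.Lib.P250.Man.Proof

/-!
# P250: Q1 is false, in every dimension at least three

`Uniformization n` is the statement of Q1 in complex dimension `n` for abstract complex manifolds:
every simply connected, complete, negatively pinched Kaehler manifold of complex dimension `n` is
biholomorphic to a bounded domain in `ℂⁿ`. Q1 asks whether `Uniformization n` holds for all
`n ≥ 2`. It does not; it fails for every `n ≥ 3`.
-/

open P250.Man

theorem Vale.Agent.Results.P250.AbstractManifolds.result :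
    (¬ ∀ n : ℕ, 2 ≤ n → Uniformization n) ∧ ∀ n : ℕ, 3 ≤ n → ¬ Uniformization n := by
  have h : ∀ n : ℕ, 3 ≤ n → ¬ Uniformization n := by
    intro n hn
    obtain ⟨M, g, Γ, hM, -, hsc, hK, hΓ, hc, hp, hno⟩ := P250.main_EG n hn
    exact refute hM hK hΓ hc hp hno
  exact ⟨fun h2 => h 3 le_rfl (h2 3 (by norm_num)), h⟩
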