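import Vale.Agent.Lib.P250.G.AsmG

/-!
# P250: counterexamples to bounded-domain uniformization in every dimension at least three

For every `n ≥ 3` there are a nonempty connected, simply connected open set `M` in `ℂⁿ` and a smooth
Kaehler metric `g` on `M` with Levi-Civita connection `Γ` which is geodesically complete and whose
sectional curvatures lie between two negative constants, such that `M` is not biholomorphic to any
bounded open subset of `ℂⁿ` (connected or not). This answers Q1 in the negative.
-/

open P250

theorem Vale.Agent.Results.P250.AllDimensions.result (n : ℕ) (hn : 3 ≤ n) :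
    ∃ (M : Set (EuclideanSpace ℂ (Fin n)))
      (g : EuclideanSpace ℂ (Fin n) →
        EuclideanSpace ℂ (Fin n) →L[ℝ] EuclideanSpace ℂ (Fin n) →L[ℝ] ℝ)
      (Γ : EuclideanSpace ℂ (Fin n) →
        EuclideanSpace ℂ (Fin n) →L[ℝ] EuclideanSpace ℂ (Fin n) →L[ℝ] EuclideanSpace ℂ (Fin n)),
      IsOpen M ∧ IsConnected M ∧ SimplyConnectedSpace M ∧
      IsKahlerMetric M g ∧ IsLeviCivita M g Γ ∧ IsGeodesicallyComplete M Γ ∧
      IsNegativelyPinched M g Γ ∧
      ∀ D : Set (EuclideanSpace ℂ (Fin n)), IsOpen D → Bornology.IsBounded D →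
        ¬ AreBiholomorphic M D :=
  main_EG n hn
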