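import Vale.Agent.Lib.P250.Main

/-!
# P250: a simply connected complete negatively pinched Kaehler manifold that is not biholomorphic
to a bounded domain

There are a nonempty connected, simply connected open set `M` in `ℂ³` and a smooth Kaehler metric
`g` on `M` with Levi-Civita connection `Γ` which is geodesically complete and whose sectional
curvatures lie between two negative constants, such that `M` is not biholomorphic to any bounded
open subset of `ℂ³` (connected or not). This answers Q1 in the negative.
-/

open P250

theorem Vale.Agent.Results.P250.NotBoundedDomain.result :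
    ∃ (M : Set (EuclideanSpace ℂ (Fin 3)))
      (g : EuclideanSpace ℂ (Fin 3) →
        EuclideanSpace ℂ (Fin 3) →L[ℝ] EuclideanSpace ℂ (Fin 3) →L[ℝ] ℝ)
      (Γ : EuclideanSpace ℂ (Fin 3) →
        EuclideanSpace ℂ (Fin 3) →L[ℝ] EuclideanSpace ℂ (Fin 3) →L[ℝ] EuclideanSpace ℂ (Fin 3)),
      IsOpen M ∧ IsConnected M ∧ SimplyConnectedSpace M ∧
      IsKahlerMetric M g ∧ IsLeviCivita M g Γ ∧ IsGeodesicallyComplete M Γ ∧
      IsNegativelyPinched M g Γ ∧
      ∀ D : Set (EuclideanSpace ℂ (Fin 3)), IsOpen D → Bornology.IsBounded D →
        ¬ AreBiholomorphic M D :=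
  main_E3
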